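import Vale.Agent.P305.Bdl.B2
import Vale.Agent.P305.Bdl.B1

set_option autoImplicit false

namespace Vale.Agent.Results.P305.ChordalOddHeight

open Vale.Agent.P305

/-- (1) Maximum matching in all graphs: one bipartite call on twice the size, plus
`O((n+m) log n)` for every odd cycle of a largest induced odd cycle packing. (2) An almost-linear
time algorithm for bipartite graphs gives one for all graphs with subpolynomial packing number.
(3), (4) The packing number is at most the independence number, and at most the number of cliques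
whose removal leaves a bipartite graph. (5) Chordal graphs take `O(log n)` times the time of
bipartite graphs of twice the size, plus `O((n + m) log² n)`, so (6) almost-linear time if bipartite
graphs have it. (7) All graphs take, up to constant factors and an additive linear term, the time
of comparability graphs of height three, so (8) almost-linear time is achievable on these if and
only if it is achievable on all graphs. -/
theorem result :
    (∀ T : ℕ → ℕ → ℕ, (∀ n n' m m', n ≤ n' → m ≤ m' → T n m ≤ T n' m') →
      (∃ P, Solves P (fun _ G => G.IsBipartite) fun n G => T n G.edgeSet.ncard) →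
      ∃ P C, Solves P (fun _ _ => True) fun n G =>
        C * (T (2 * n) (2 * G.edgeSet.ncard) +
          (oddPacking G + 1) * ((Nat.log 2 n + 1) * (n + G.edgeSet.ncard + 1)))) ∧
    (AlmostLinear (fun _ G => G.IsBipartite) → ∀ κ : ℕ → ℕ,
      (∀ ε : ℝ, 0 < ε → ∃ c : ℝ, ∀ N : ℕ, (κ N : ℝ) ≤ c * ((N : ℝ) + 1) ^ ε) →
      AlmostLinear fun n G => oddPacking G ≤ κ (n + G.edgeSet.ncard)) ∧
    (∀ (n : ℕ) (G : SimpleGraph (Fin n)), oddPacking G ≤ G.indepNum) ∧
    (∀ (n : ℕ) (G : SimpleGraph (Fin n)) (c : ℕ) (K : Fin c → Set (Fin n)),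
      (∀ i, G.IsClique (K i)) → (G.induce {v | ∀ i, v ∉ K i}).IsBipartite → oddPacking G ≤ c) ∧
    (∀ T : ℕ → ℕ → ℕ, (∀ n n' m m', n ≤ n' → m ≤ m' → T n m ≤ T n' m') →
      (∃ P, Solves P (fun _ G => G.IsBipartite) fun n G => T n G.edgeSet.ncard) →
      ∃ P C, Solves P (fun _ G => IsChordal G) fun n G =>
        C * ((Nat.log 2 n + 1) * (T (2 * n) (2 * G.edgeSet.ncard) +
          (Nat.log 2 n + 1) * (n + G.edgeSet.ncard + 1)))) ∧
    (AlmostLinear (fun _ G => G.IsBipartite) → AlmostLinear fun _ G => IsChordal G) ∧
    (∀ T : ℕ → ℕ → ℕ, (∃ P, Solves P Comp3 fun n G => T n G.edgeSet.ncard) →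
      ∃ P C, Solves P (fun _ _ => True) fun n G =>
        C * (T (n + 2 * G.edgeSet.ncard) (5 * G.edgeSet.ncard) + n + G.edgeSet.ncard + 1)) ∧
    (AlmostLinear Comp3 ↔ AlmostLinear fun _ _ => True) :=
  ⟨odd_reduction, odd_almostLinear, fun _ G => oddPacking_le_indepNum G,
    fun _ G _ K hK hB => oddPacking_le_cliques G K hK hB, chordal_reduction, chordal_almostLinear,
    all_of_comp3, almostLinear_comp3⟩

end Vale.Agent.Results.P305.ChordalOddHeight
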